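import Vale.Agent.P236Z.Dt.HF

/-!
# P236, block CV: convergence of the Adams spectral sequence (statements)
-/

open CategoryTheory MonoidalCategory Limits Pretriangulated

universe v u

namespace Vale.Agent.P236Z.Cv

open Vale.Agent.P251 Vale.Agent.P251.T Vale.Agent.P251.M Vale.Agent.P251.F Vale.Agent.P251.I
  Vale.Agent.P251.F.Cob

/-- The central element `4` acts trivially on the cohomology modulo `3 ^ N`, in all degrees. -/
def SAHN : Prop :=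
  ∀ (n k N : ℕ) (x : Cob Laz (n + 1)), IsWt (k : ℤ) x → (3 : Cob Laz (n + 2)) ^ N ∣ d (n + 1) x →
    ∃ h : Cob Laz n, IsWt (k : ℤ) h ∧ (3 : Cob Laz (n + 1)) ^ N ∣ (4 ^ k - 1) * x - d n h

variable (T : Type u) [Category.{v} T] [Preadditive T] [HasZeroObject T]
    [HasShift T ℤ] [∀ n : ℤ, (shiftFunctor T n).Additive] [Pretriangulated T] [IsTriangulated T]
    [MonoidalCategory T] [SymmetricCategory T] [TensorTriangulated T] [MonoidalClosed T]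
    [HasCoproducts.{0} T] [HasProducts.{0} T] [StableCat T] [LocallySmall.{0} T]

/-- The `3`-primary torsion of a stable stem has bounded exponent. -/
def EXP : Prop := SAHN → ∀ (_ : MUData T) (n : ℤ), 0 ≤ n → ∃ N : ℕ,
  ∀ (z : (𝟙_ T)⟦n⟧ ⟶ 𝟙_ T) (k : ℕ), (3 : ℤ) ^ k • z = 0 → (3 : ℤ) ^ N • z = 0

/-- The fibre of the Hurewicz map of a connective object is connective, and a class of infinite
Adams filtration is infinitely divisible. -/
def DIVI : Prop := ∀ (_ : SpaceFunctor T) (H : T) (η : 𝟙_ T ⟶ H), Tr.IsHF 3 η →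
  (3 : ℤ) • 𝟙 H = 0 ∧ ∀ (Y : T) (a : ℤ), Conn a Y →
    (∀ (Y' : T) (g : Y' ⟶ Y) (δ : H ⊗ Y ⟶ Y'⟦(1 : ℤ)⟧), P251.H.Dist g (Tr.hur η Y) δ → Conn a Y') ∧
    ∀ (n : ℤ) (y : (𝟙_ T)⟦n⟧ ⟶ Y), (∀ r, Tr.AF η r y) → ∀ k : ℕ, ∃ y', y = (3 : ℤ) ^ k • y'

end Vale.Agent.P236Z.Cv
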