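import Vale.Agent.P236Z.Cv.Defs

/-!
# P236, block CV: the Hurewicz theorem modulo three; classes of infinite filtration are divisible
-/

open CategoryTheory MonoidalCategory Limits Pretriangulated

universe v u

set_option linter.unusedSectionVars false

namespace Vale.Agent.P236Z.Cv

open Vale.Agent.P251 Vale.Agent.P251.T Vale.Agent.P251.M Vale.Agent.P251.I Vale.Agent.P251.H

namespace DivAux

variable {T : Type u} [Category.{v} T] [Preadditive T] [HasZeroObject T]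
    [HasShift T ℤ] [∀ n : ℤ, (shiftFunctor T n).Additive] [Pretriangulated T]

/-- The identity is killed by a power of three. -/
def Tor (X : T) : Prop := ∃ e : ℕ, (3 : ℤ) ^ e • 𝟙 X = 0

theorem Tor.shift {X : T} (h : Tor X) (n : ℤ) : Tor (X⟦n⟧) := h.imp fun e he => by
  rw [← (shiftFunctor T n).map_id, ← Functor.map_zsmul, he, Functor.map_zero]

theorem smul_of_id {A X : T} {m : ℤ} (h : m • 𝟙 X = 0) (f : A ⟶ X) : m • f = 0 := by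
  rw [← Category.comp_id f, ← Preadditive.comp_zsmul, h, comp_zero]

theorem Tor.ext {X Y Z : T} {f : X ⟶ Y} {g : Y ⟶ Z} {h : Z ⟶ X⟦(1 : ℤ)⟧} (D : Dist f g h)
    (hX : Tor X) (hZ : Tor Z) : Tor Y := by
  obtain ⟨e, he⟩ := hX
  obtain ⟨e', he'⟩ := hZ
  obtain ⟨b, hb⟩ := D.lift₂ ((3 : ℤ) ^ e' • 𝟙 Y)
    (by rw [Preadditive.zsmul_comp, Category.id_comp, smul_of_id he'])
  exact ⟨e + e', by
    rw [pow_add, ← smul_smul, ← hb, ← Preadditive.zsmul_comp, smul_of_id he, zero_comp]⟩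

theorem tor_cone {X M : T} {k : ℕ} {r : X ⟶ M} {d : M ⟶ X⟦(1 : ℤ)⟧}
    (D : Dist ((3 : ℤ) ^ k • 𝟙 X) r d) : Tor M := by
  have h1 := D.zero₁₂
  have h2 := D.zero₃₁
  rw [Preadditive.zsmul_comp, Category.id_comp] at h1
  rw [Functor.map_zsmul, CategoryTheory.Functor.map_id, Preadditive.comp_zsmul,
    Category.comp_id] at h2
  obtain ⟨c, hc⟩ := D.desc₃ ((3 : ℤ) ^ k • 𝟙 M)
    (by rw [Preadditive.comp_zsmul, Category.comp_id, h1])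
  exact ⟨k + k, by
    rw [pow_add, ← smul_smul, ← hc, ← Preadditive.zsmul_comp, h2, zero_comp]⟩

variable [MonoidalCategory T]

theorem inj_of_surj {X Y Z : T} {f : X ⟶ Y} {g : Y ⟶ Z} {h : Z ⟶ X⟦(1 : ℤ)⟧} (D : Dist f g h)
    {k : ℤ} (hs : ∀ z : (𝟙_ T)⟦k + 1⟧ ⟶ Z, ∃ y, y ≫ g = z) (x : (𝟙_ T)⟦k⟧ ⟶ X)
    (hx : x ≫ f = 0) : x = 0 := by
  let c : (𝟙_ T)⟦k + 1⟧ ≅ ((𝟙_ T)⟦k⟧)⟦(1 : ℤ)⟧ := (shiftFunctorAdd T k 1).app (𝟙_ T)
  obtain ⟨z, hz⟩ := D.lift₁ (c.hom ≫ x⟦(1 : ℤ)⟧')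
    (by rw [Category.assoc, ← Functor.map_comp, hx, Functor.map_zero, comp_zero])
  obtain ⟨y, rfl⟩ := hs z
  apply (shiftFunctor T (1 : ℤ)).map_injective
  rw [← cancel_epi c.hom, ← hz, Category.assoc, D.zero₂₃, Functor.map_zero, comp_zero, comp_zero]

theorem conn_fib {X Y Z : T} {f : X ⟶ Y} {g : Y ⟶ Z} {h : Z ⟶ X⟦(1 : ℤ)⟧} (D : Dist f g h)
    {a : ℤ} (hY : Conn a Y) (hZ : Conn a Z) (hs : ∀ z : (𝟙_ T)⟦a⟧ ⟶ Z, ∃ y, y ≫ g = z) :
    Conn a X := fun k hk x => by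
  refine inj_of_surj D (fun z => ?_) x (hY k hk _)
  by_cases h : k + 1 = a
  · subst h
    exact hs z
  · exact ⟨0, by rw [zero_comp, hZ _ (by omega) z]⟩

theorem surj_of_conn {X Y Z : T} {f : X ⟶ Y} {g : Y ⟶ Z} {h : Z ⟶ X⟦(1 : ℤ)⟧} (D : Dist f g h)
    {a k : ℤ} (hX : Conn a X) (hk : k ≤ a) (z : (𝟙_ T)⟦k⟧ ⟶ Z) : ∃ y, y ≫ g = z :=
  D.lift₃ z (hX.shift 1 (a + 1) rfl k (by omega) _)

variable [IsTriangulated T] [SymmetricCategory T] [TensorTriangulated T] [MonoidalClosed T]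
    [HasCoproducts.{0} T] [HasProducts.{0} T] [StableCat T]

theorem conn_tensor {a b : ℤ} {X Y : T} (hX : BigCell T a X) (hY : Conn b Y) :
    Conn (b + a) (X ⊗ Y) := by
  refine Conn.of_iso (β_ Y X) ?_
  induction hX with
  | sphere k hk =>
    exact ((hY.shift k (b + k) rfl).mono (by omega)).of_iso (tensorUnitShiftIso Y k).symm
  | coprod X _ ih =>
    refine Conn.of_iso (PreservesCoproduct.iso (tensorLeft Y) X).symm fun k hk f => ?_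
    obtain ⟨s, g, rfl⟩ := P251.X.cpt_sphere k _ f
    exact Finset.sum_eq_zero fun i _ => by rw [ih i k hk (g i), zero_comp]
  | ext Δ hΔ _ _ ih₁ ih₃ => exact Conn.ext _ (TensorTriangulated.distinguished Y Δ hΔ) ih₁ ih₃

theorem smul_whisker {X : T} (m : ℤ) (Y : T) : (m • 𝟙 X) ▷ Y = m • 𝟙 (X ⊗ Y) := by
  rw [← id_whiskerRight]
  exact (tensorRight Y).map_zsmul ..

variable [LocallySmall.{0} T] (F : SpaceFunctor T)
include F

theorem exists_W {X : T} (hX : (3 : ℤ) • 𝟙 X = 0) (b : ℤ) : ∃ (W : T) (w : W ⟶ X),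
    Conn b W ∧ Tor W ∧ ∀ x : (𝟙_ T)⟦b⟧ ⟶ X, ∃ x', x' ≫ w = x := by
  let Y : Shrink.{0} ((𝟙_ T)⟦b⟧ ⟶ X) → T := fun _ => (𝟙_ T)⟦b⟧
  let s : ∐ Y ⟶ X := Sigma.desc fun j => (equivShrink _).symm j
  have hS : Conn b (∐ Y) := (BigCell.coprod Y fun _ => BigCell.sphere _ le_rfl).conn (unit_conn F)
    (fun Y k f => StableCat.compact k Y f)
  obtain ⟨W, r, d, D⟩ := exists_cone ((3 : ℤ) ^ 1 • 𝟙 (∐ Y))
  obtain ⟨w, hw⟩ := D.desc₂ s
    (by rw [Preadditive.zsmul_comp, Category.id_comp, pow_one, smul_of_id hX])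
  refine ⟨W, w, Conn.ext₃ _ D hS (hS.mono (by omega)), tor_cone D, fun x =>
    ⟨Sigma.ι Y (equivShrink _ x) ≫ r, ?_⟩⟩
  rw [Category.assoc, hw]
  simp [s, Y]

variable {H : T} {η : 𝟙_ T ⟶ H} (hH : Tr.IsHF 3 η)
include hH

theorem exists_Z : ∃ (Z : T) (e : 𝟙_ T ⟶ Z) (r : Z ⟶ H) (d : H ⟶ Z⟦(1 : ℤ)⟧),
    CofIn (BigCell T 2) e ∧ e ≫ r = η ∧ Dist ((3 : ℤ) • 𝟙 Z) r d := by
  obtain ⟨Z, e, hc, hpos'⟩ := X.exists_HZ (T := T)
  have hb := X.bij_of_cofIn hH.conc hc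
  obtain ⟨r, hr⟩ : ∃ r, e ≫ r = η := hb.2 η
  obtain ⟨J, a, b, D, hJ⟩ := id hc
  have hJ' : Conn 2 J := hJ.conn (unit_conn F) (fun Y k f => StableCat.compact k Y f)
  have hpos : ∀ k : ℤ, k ≠ 0 → ∀ g : (𝟙_ T)⟦k⟧ ⟶ Z, g = 0 := by
    intro k hk g
    rcases lt_or_gt_of_ne hk with h | h
    · exact conn_ring F D hJ' k h g
    · exact hpos' k (by omega) g
  have hint : ∀ f : 𝟙_ T ⟶ Z, ∃ m : ℤ, f = m • e := exists_int_ring F D hJ'
  have hinj : ∀ m : ℤ, m • e = 0 → m = 0 := eq_zero_of_zsmul_unit F D hJ'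
  let ε : (𝟙_ T)⟦(0 : ℤ)⟧ ≅ 𝟙_ T := (shiftFunctorZero T ℤ).app (𝟙_ T)
  obtain ⟨B, ι, d, E⟩ := exists_fibre r
  obtain ⟨ψ, hψ⟩ := E.lift₂ ((3 : ℤ) • 𝟙 Z) (hb.1 (by
    dsimp only
    rw [Preadditive.zsmul_comp, Category.id_comp, Preadditive.comp_zsmul, hr, comp_zero]
    exact (hH.ord 3).2 dvd_rfl))
  have hs : ∀ (k : ℤ) (z : (𝟙_ T)⟦k⟧ ⟶ H), ∃ y, y ≫ r = z := fun k z => by
    by_cases hk : k = 0
    · subst hk
      obtain ⟨m, hm⟩ := hH.gen (ε.inv ≫ z)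
      refine ⟨ε.hom ≫ (m • e), ?_⟩
      rw [Category.assoc, Preadditive.zsmul_comp, hr, ← hm, Iso.hom_inv_id_assoc]
    · exact ⟨0, by rw [zero_comp, hH.conc k hk z]⟩
  have : IsIso ψ := by
    refine isIso_of_bijective_hom (fun k => (𝟙_ T)⟦k⟧)
      (fun k k' h => ⟨((shiftFunctorAdd' T k 1 k' h).app (𝟙_ T)).symm⟩)
      (fun X hX => StableCat.generator X hX) _ (fun k x hx => ?_) (fun k y => ?_)
    · by_cases hk : k = 0
      · subst hk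
        obtain ⟨m, hm⟩ := hint (ε.inv ≫ x)
        have h1 : (3 * m) • e = 0 := by
          rw [← smul_smul, ← hm, ← Category.comp_id (ε.inv ≫ x), ← Preadditive.comp_zsmul, ← hψ,
            Category.assoc, reassoc_of% hx, zero_comp, comp_zero]
        obtain rfl : m = 0 := by have := hinj _ h1; omega
        rw [← cancel_epi ε.inv, hm, zero_smul, comp_zero]
      · exact hpos k hk x
    · obtain ⟨x, hx⟩ : ∃ x : (𝟙_ T)⟦k⟧ ⟶ Z, y ≫ ι = (3 : ℤ) • x := by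
        by_cases hk : k = 0
        · subst hk
          obtain ⟨m, hm⟩ := hint (ε.inv ≫ y ≫ ι)
          obtain ⟨m', rfl⟩ := (hH.ord m).1 (by
            rw [← hr, ← Preadditive.zsmul_comp, ← hm, Category.assoc, Category.assoc, E.zero₁₂,
              comp_zero, comp_zero])
          refine ⟨ε.hom ≫ (m' • e), ?_⟩
          rw [← Preadditive.comp_zsmul, smul_smul, ← Iso.inv_comp_eq, hm]
          rfl
        · exact ⟨0, by rw [smul_zero, hpos k hk (y ≫ ι)]⟩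
      refine ⟨x, sub_eq_zero.1 (inj_of_surj E (hs _) _ ?_)⟩
      rw [Preadditive.sub_comp, Category.assoc, hψ, hx, Preadditive.comp_zsmul, Category.comp_id,
        sub_self]
  exact ⟨Z, e, r, _, hc, hr, Tr.dist_iso E (asIso ψ) (Iso.refl _) (Iso.refl _)
    (by simp [hψ]) (by simp)⟩

theorem three_H : (3 : ℤ) • 𝟙 H = 0 := by
  obtain ⟨Z, e, r, d, ⟨J, a, b, D, hJ⟩, -, E⟩ := exists_Z F hH
  have h1 : BigCell T 0 (𝟙_ T) :=
    BigCell.of_iso ((shiftFunctorZero T ℤ).app (𝟙_ T)) (BigCell.sphere 0 le_rfl)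
  have hZ : BigCell T 0 Z := BigCell.ext _ D h1 (hJ.mono (by norm_num))
  have h := E.zero₁₂
  rw [Preadditive.zsmul_comp, Category.id_comp] at h
  obtain ⟨c, hc⟩ := E.desc₃ ((3 : ℤ) • 𝟙 H) (by rw [Preadditive.comp_zsmul, Category.comp_id, h])
  rw [← hc, X.eq_zero_of_bigCell hH.conc (hZ.shift 1 1 rfl) c, comp_zero]

/-- The Hurewicz theorem. -/
theorem hurewicz {Y : T} {a : ℤ} (hY : Conn a Y) : Conn a (H ⊗ Y) ∧
    (∀ z : (𝟙_ T)⟦a⟧ ⟶ H ⊗ Y, ∃ y, y ≫ Tr.hur η Y = z) ∧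
    ∀ y : (𝟙_ T)⟦a⟧ ⟶ Y, y ≫ Tr.hur η Y = 0 → ∃ y', y = (3 : ℤ) • y' := by
  obtain ⟨Z, e, r, d, ⟨J, p, b, D, hJ⟩, rfl, E⟩ := exists_Z F hH
  obtain ⟨_, D'⟩ := Tr.dist_tensR D Y
  obtain ⟨_, E'⟩ := Tr.dist_tensR E Y
  have h1 : Conn (a + 2) (J ⊗ Y) := conn_tensor hJ hY
  have h2 : Conn a (Z ⊗ Y) := Conn.ext _ D' (hY.of_iso (λ_ Y).symm) (h1.mono (by omega))
  refine ⟨Conn.ext₃ _ E' h2 (h2.mono (by omega)), fun z => ?_, fun y hy => ?_⟩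
  · obtain ⟨z', rfl⟩ := surj_of_conn E' h2 le_rfl z
    obtain ⟨z'', rfl⟩ := D'.lift₂ z' (h1 a (by omega) _)
    exact ⟨z'' ≫ (λ_ Y).hom, by simp [Tr.hur]⟩
  · obtain ⟨z', hz⟩ := E'.lift₂ (y ≫ (λ_ Y).inv ≫ e ▷ Y) (by simpa [Tr.hur] using hy)
    obtain ⟨z'', rfl⟩ := D'.lift₂ z' (h1 a (by omega) _)
    refine ⟨z'' ≫ (λ_ Y).hom, ?_⟩
    rw [← Preadditive.zsmul_comp, ← Iso.comp_inv_eq, ← sub_eq_zero]
    refine inj_of_surj D' (fun z => ⟨0, by rw [zero_comp, h1 _ (by omega) z]⟩) _ ?_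
    rw [Preadditive.sub_comp, Category.assoc, ← hz, smul_whisker, Preadditive.comp_zsmul,
      Category.comp_id, Preadditive.zsmul_comp, sub_self]

/-- One step of a modified Adams tower. -/
theorem step {Y : T} {a : ℤ} (hY : Conn a Y) (hT : Tor Y) : ∃ (Y' : T) (g : Y' ⟶ Y),
    Conn a Y' ∧ Tor Y' ∧ (∀ {C : T} (h : C ⟶ Y), Tr.Null η h → ∃ h', h' ≫ g = h) ∧
    ∀ x : (𝟙_ T)⟦a⟧ ⟶ Y', (x ≫ g = 0 → x = 0) ∧ ∃ y, x ≫ g = (3 : ℤ) • y := by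
  obtain ⟨h1, h2, h3⟩ := hurewicz F hH hY
  have h4 : (3 : ℤ) • 𝟙 (H ⊗ Y) = 0 := by
    rw [← smul_whisker, three_H F hH, MonoidalPreadditive.zero_whiskerRight]
  obtain ⟨W, w, w1, w2, w3⟩ := exists_W F h4 (a + 1)
  obtain ⟨K, t, d, D⟩ := exists_cone w
  obtain ⟨Y', g, δ, E⟩ := exists_fibre (Tr.hur η Y ≫ t)
  obtain ⟨_, _, E'⟩ := Dist.invRot' E
  refine ⟨Y', g, conn_fib E hY (Conn.ext₃ _ D h1 (w1.mono (by omega))) fun z => ?_,
    Tor.ext E' ((Tor.ext D.rot ⟨1, by rwa [pow_one]⟩ (w2.shift 1)).shift _) hT,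
    fun h hh => E.lift₂ h (by rw [← Category.assoc, hh, zero_comp]), fun x =>
      ⟨inj_of_surj E (fun z => ⟨0, ?_⟩) x, h3 _ ?_⟩⟩
  · obtain ⟨z, rfl⟩ := surj_of_conn D w1 (by omega) z
    obtain ⟨y, rfl⟩ := h2 z
    exact ⟨y, (Category.assoc _ _ _).symm⟩
  · obtain ⟨z, rfl⟩ := surj_of_conn D w1 le_rfl z
    obtain ⟨y, rfl⟩ := w3 z
    rw [zero_comp, Category.assoc, D.zero₁₂, comp_zero]
  · obtain ⟨x', hx⟩ := D.lift₂ ((x ≫ g) ≫ Tr.hur η Y)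
      (by rw [Category.assoc, Category.assoc, E.zero₁₂, comp_zero])
    rw [← hx, w1 a (by omega) x', zero_comp]

theorem kill (n : ℤ) (d : ℕ) : ∀ (a : ℤ) (Y : T), n < a + d → Conn a Y → Tor Y →
    ∃ N, ∀ f : (𝟙_ T)⟦n⟧ ⟶ Y, Tr.AF η N f → f = 0 := by
  induction d with
  | zero => exact fun a Y h hY _ => ⟨0, fun f _ => hY n (by omega) f⟩
  | succ d ih =>
    intro a Y h hY hT
    obtain ⟨e, he⟩ : ∃ e : ℕ, ∀ x : (𝟙_ T)⟦a⟧ ⟶ Y, (3 : ℤ) ^ e • x = 0 :=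
      hT.imp fun e he x => smul_of_id he x
    induction e generalizing Y with
    | zero =>
      refine ih (a + 1) Y (by omega) (fun k hk x => ?_) hT
      by_cases h : k = a
      · subst h
        simpa using he x
      · exact hY k (by omega) x
    | succ e ih' =>
      obtain ⟨Y', g, h1, h2, h3, h4⟩ := step F hH hY hT
      obtain ⟨N, hN⟩ := ih' Y' h1 h2 fun x => by
        obtain ⟨y, hy⟩ := (h4 x).2
        refine (h4 _).1 ?_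
        rw [Preadditive.zsmul_comp, hy, smul_smul, ← pow_succ, he]
      refine ⟨N + 1, ?_⟩
      rintro _ ⟨C, p, q, rfl, hp, hq⟩
      obtain ⟨q, rfl⟩ := h3 q hq
      rw [← Category.assoc, hN _ (hp.post q), zero_comp]

end DivAux

variable (T : Type u) [Category.{v} T] [Preadditive T] [HasZeroObject T]
    [HasShift T ℤ] [∀ n : ℤ, (shiftFunctor T n).Additive] [Pretriangulated T] [IsTriangulated T]
    [MonoidalCategory T] [SymmetricCategory T] [TensorTriangulated T] [MonoidalClosed T]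
    [HasCoproducts.{0} T] [HasProducts.{0} T] [StableCat T] [LocallySmall.{0} T]

open DivAux in
theorem divi : DIVI T := by
  intro F H η hH
  refine ⟨three_H F hH, fun Y a hY => ⟨fun Y' g δ D => ?_, fun n y hy k => ?_⟩⟩
  · obtain ⟨h1, h2, -⟩ := hurewicz F hH hY
    exact conn_fib D hY h1 h2
  · obtain ⟨M, r, d, D⟩ := exists_cone ((3 : ℤ) ^ k • 𝟙 Y)
    obtain ⟨N, hN⟩ := kill F hH n (n + 1 - a).toNat a M (by omega)
      (Conn.ext₃ _ D hY (hY.mono (by omega))) (tor_cone D)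
    obtain ⟨y', h⟩ := D.lift₂ y (hN _ ((hy N).post r))
    exact ⟨y', by rw [← h, Preadditive.comp_zsmul, Category.comp_id]⟩

end Vale.Agent.P236Z.Cv
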