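import Vale.Agent.P236Z.Cv.Defs
import Vale.Agent.P236Z.Det.Sah

/-!
# P236, block CV: the `3`-primary torsion of a stable stem has bounded exponent
-/

open CategoryTheory MonoidalCategory Limits Pretriangulated

set_option linter.unusedSectionVars false

universe v u

namespace Vale.Agent.P236Z.Cv

open Vale.Agent.P251 Vale.Agent.P251.T Vale.Agent.P251.M Vale.Agent.P251.F Vale.Agent.P251.I
  Vale.Agent.P251.S Vale.Agent.P251.H Vale.Agent.P236Z.Dt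

variable {T : Type u} [Category.{v} T] [Preadditive T] [HasZeroObject T]
    [HasShift T ℤ] [∀ n : ℤ, (shiftFunctor T n).Additive] [Pretriangulated T] [IsTriangulated T]
    [MonoidalCategory T] [SymmetricCategory T] [TensorTriangulated T] [MonoidalClosed T]
    [HasCoproducts.{0} T] [HasProducts.{0} T] [StableCat T]
    (D : MUData T) (U : UnitCof D.R)

section

variable {b : ℕ} {M : T} {i : 𝟙_ T ⟶ M} {δ : M ⟶ (𝟙_ T)⟦(1 : ℤ)⟧}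
  (hM : Dist (((3 : ℕ) : ℤ) ^ b • 𝟙 (𝟙_ T)) i δ)

include hM

theorem un_odd (s : ℕ) (w : ℤ) (t : (𝟙_ T)⟦2 * w + 1⟧ ⟶ U.cobar.B s (𝟙_ T) ⊗ M) :
    t ≫ (unitMap D.R _ ▷ M) = 0 := by
  obtain ⟨c, hc⟩ : ∃ c : ((stdEven T).S w)⟦(1 : ℤ)⟧ ⟶ U.cobar.Q (s + 1) (𝟙_ T) ⊗ M,
      c ≫ (U.cobar.q s (𝟙_ T) ▷ M) = (eO w).hom ≫ t ≫ (unitMap D.R (U.cobar.B s (𝟙_ T)) ▷ M) :=
    U.cobar.q_surjective (F := homM (((stdEven T).S w)⟦(1 : ℤ)⟧) M) s (𝟙_ T)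
      ((eO w).hom ≫ t ≫ (unitMap D.R _ ▷ M))
  rw [red_odd D U (by norm_num) hM s w c, zero_comp] at hc
  rw [← cancel_epi (eO w).hom, ← hc, comp_zero]

theorem un_even (s : ℕ) (w : ℤ) (t : (stdEven T).S w ⟶ U.cobar.B s (𝟙_ T) ⊗ M) :
    ∃ x : Cob.wt Laz s w, (3 : Cob Laz (s + 1)) ^ b ∣ Cob.d s x.1 ∧
      t ≫ (unitMap D.R _ ▷ M) = D.phi U s w x ≫ U.cobar.q s (𝟙_ T) ≫ red i _ := by
  obtain ⟨c, hc, hq⟩ : ∃ c : (stdEven T).S w ⟶ U.cobar.Q (s + 1) (𝟙_ T) ⊗ M,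
      c ≫ (U.cobar.d (s + 1) (𝟙_ T) ▷ M) = 0 ∧ c ≫ (U.cobar.q s (𝟙_ T) ▷ M) =
        t ≫ (unitMap D.R (U.cobar.B s (𝟙_ T)) ▷ M) :=
    U.cobar.exists_cocycle (F := homM ((stdEven T).S w) M) s (𝟙_ T)
    (t ≫ (unitMap D.R _ ▷ M)) (by
      change (t ≫ (unitMap D.R _ ▷ M)) ≫ (U.cobar.D s (𝟙_ T) ▷ M) = 0
      rw [CobarData.D, comp_whiskerRight, Category.assoc, ← Category.assoc (_ ▷ M),
        (dist_bdM D U M s).zero₁₂, zero_comp, comp_zero])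
  obtain ⟨x, rfl⟩ := red_surj D U (by norm_num) hM s w c
  obtain ⟨y, hy⟩ := red_ker D U (by norm_num) hM (s + 1) w (Cob.dwt Laz s w x) (by
    rw [D.phi_d, Category.assoc, red_nat, ← Category.assoc]
    exact hc)
  refine ⟨x, ⟨y.1, (congrArg Subtype.val hy).trans ?_⟩, ?_⟩
  · change ((3 : ℕ) : ℤ) ^ b • y.1 = _
    simp
  · rw [← hq, Category.assoc, ← red_nat]

theorem phi_eq {s k : ℕ} {x z : Cob.wt Laz s (k : ℤ)} {c : ℤ}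
    (h : (3 : Cob Laz s) ^ b ∣ (c : Cob Laz s) * x.1 - z.1) {Y : T}
    (q : U.cobar.Q (s + 1) (𝟙_ T) ⟶ Y) :
    c • (D.phi U s k x ≫ q ≫ red i _) = D.phi U s k z ≫ q ≫ red i _ := by
  obtain ⟨r, hr⟩ := h
  have h1 : (c • x - z).1 = ((3 : ℕ) : ℤ) ^ b • r := by
    change c • x.1 - z.1 = _
    rw [zsmul_eq_mul, hr]
    simp
  have h2 := Cob.proj_of_isWt (c • x - z).2 (k : ℤ)
  rw [if_pos rfl] at h2
  have h3 : c • x - z =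
      ((3 : ℕ) : ℤ) ^ b • (⟨Cob.proj _ r, Cob.isWt_proj _ r⟩ : Cob.wt Laz s (k : ℤ)) := by
    apply Subtype.ext
    rw [← h2, h1, ← Cob.projHom_apply, map_zsmul]
    rfl
  rw [← sub_eq_zero, ← Preadditive.zsmul_comp, ← Preadditive.sub_comp, ← map_zsmul, ← map_sub, h3,
    map_zsmul, ← Category.assoc, Preadditive.zsmul_comp, zsmul_red' hM]

end

theorem four_ne {k : ℕ} (hk : 0 < k) : (4 ^ k - 1 : ℤ) ≠ 0 :=
  (sub_pos.2 (one_lt_pow₀ (by norm_num) hk.ne')).ne'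

theorem cyc0 {m : ℤ} (hm : 0 < m) : ∃ c : ℤ, c ≠ 0 ∧ ∀ (b : ℕ) (M : T) (i : 𝟙_ T ⟶ M)
    (δ : M ⟶ (𝟙_ T)⟦(1 : ℤ)⟧), Dist (((3 : ℕ) : ℤ) ^ b • 𝟙 (𝟙_ T)) i δ →
    ∀ t : (𝟙_ T)⟦m⟧ ⟶ U.cobar.B 0 (𝟙_ T) ⊗ M, (c • t) ≫ (unitMap D.R _ ▷ M) = 0 := by
  obtain ⟨w, rfl | rfl⟩ := Int.even_or_odd' m
  · obtain ⟨k, rfl⟩ := Int.eq_ofNat_of_zero_le (show 0 ≤ w by omega)
    refine ⟨4 ^ k - 1, four_ne (by omega), fun b M i δ hM t => ?_⟩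
    let e := (stdEven T).sphIso (Iso.refl _) (k : ℤ)
    obtain ⟨x, hx, ht⟩ := un_even D U hM 0 k (e.hom ≫ t)
    have h := phi_eq D U hM (x := x) (z := 0) (c := 4 ^ k - 1)
      (by simpa using Det.sah.2 k b x.1 x.2 hx) (U.cobar.q 0 (𝟙_ T))
    rw [map_zero, zero_comp, ← ht] at h
    rw [← cancel_epi e.hom, comp_zero, ← h]
    simp
  · exact ⟨1, one_ne_zero, fun b M i δ hM t => un_odd D U hM 0 w _⟩

theorem cyc (hS : SAHN) (s : ℕ) {m : ℤ} (hm : 0 < m) : ∃ c : ℤ, c ≠ 0 ∧ ∀ (b : ℕ) (M : T)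
    (i : 𝟙_ T ⟶ M) (δ : M ⟶ (𝟙_ T)⟦(1 : ℤ)⟧), Dist (((3 : ℕ) : ℤ) ^ b • 𝟙 (𝟙_ T)) i δ →
    ∀ t : (𝟙_ T)⟦m⟧ ⟶ U.cobar.B (s + 1) (𝟙_ T) ⊗ M, ∃ v,
      (c • t - v ≫ (U.cobar.k s (𝟙_ T) ▷ M)) ≫ (unitMap D.R _ ▷ M) = 0 := by
  obtain ⟨w, rfl | rfl⟩ := Int.even_or_odd' m
  · obtain ⟨k, rfl⟩ := Int.eq_ofNat_of_zero_le (show 0 ≤ w by omega)
    refine ⟨4 ^ k - 1, four_ne (by omega), fun b M i δ hM t => ?_⟩
    let e := (stdEven T).sphIso (Iso.refl _) (k : ℤ)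
    obtain ⟨x, hx, ht⟩ := un_even D U hM (s + 1) k (e.hom ≫ t)
    obtain ⟨y, hy, hd⟩ := hS s k b x.1 x.2 hx
    have h := phi_eq D U hM (x := x) (z := Cob.dwt Laz s k ⟨y, hy⟩) (c := 4 ^ k - 1)
      (by simpa using hd) (U.cobar.q (s + 1) (𝟙_ T))
    rw [← ht, D.phi_d, Category.assoc, Category.assoc, reassoc_of% (U.cobar.d_q s (𝟙_ T)),
      CobarData.D] at h
    refine ⟨e.inv ≫ D.phi U s k ⟨y, hy⟩ ≫ U.cobar.q s (𝟙_ T) ≫ red i _, ?_⟩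
    rw [← cancel_epi e.hom, comp_zero, Preadditive.sub_comp, Preadditive.comp_sub,
      Preadditive.zsmul_comp, Preadditive.comp_zsmul, h, sub_eq_zero]
    simp only [Category.assoc, Iso.hom_inv_id_assoc]
    rw [← comp_whiskerRight, ← red_nat, Category.assoc]
  · exact ⟨1, one_ne_zero, fun b M i δ hM t => ⟨0, un_odd D U hM _ w _⟩⟩

theorem cell_B (s : ℕ) :
    ∀ (a : ℤ) (Y : T), BigCell T a Y → BigCell T (a + 2 * s) (U.cobar.B s Y) := by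
  induction s with
  | zero => exact fun a Y h => h.mono (by simp)
  | succ s ih =>
    intro a Y h
    exact (ih (2 + a) (U.J ⊗ Y) ((D.conn _ _ _ U.dist).tensor h _ rfl)).mono (by push_cast; omega)

theorem kill (hS : SAHN) (d : ℕ) : ∀ (s : ℕ) (m : ℤ), 0 ≤ m → m < 2 * s + d →
    ∃ c : ℤ, c ≠ 0 ∧ ∀ (b : ℕ) (M : T)
    (i : 𝟙_ T ⟶ M) (δ : M ⟶ (𝟙_ T)⟦(1 : ℤ)⟧), Dist (((3 : ℕ) : ℤ) ^ b • 𝟙 (𝟙_ T)) i δ →
    ∀ t : (𝟙_ T)⟦m⟧ ⟶ U.cobar.B s (𝟙_ T) ⊗ M, t ≫ (unitMap D.R _ ▷ M) = 0 → c • t = 0 := by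
  induction d with
  | zero =>
    refine fun s m _ hm => ⟨1, one_ne_zero, fun b M i δ hM t _ => ?_⟩
    have h1 : BigCell T 0 (𝟙_ T) :=
      BigCell.of_iso ((shiftFunctorZero T ℤ).app (𝟙_ T)) (BigCell.sphere 0 le_rfl)
    exact ((cell_B D U s 0 _ h1).tensor (BigCell.cone _ hM h1 h1) _ rfl).conn D.conn_unit
      (fun Y k f => StableCat.compact k Y f) m (by omega) _
  | succ d ih =>
    intro s m h0 hm
    obtain ⟨c, hc, h⟩ := ih (s + 1) (m + 1) (by omega) (by push_cast at hm ⊢; omega)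
    obtain ⟨c', hc', h'⟩ := cyc D U hS s (m := m + 1) (by omega)
    refine ⟨c * c', mul_ne_zero hc hc', fun b M i δ hM t ht => ?_⟩
    let e : (𝟙_ T)⟦m + 1⟧ ≅ ((𝟙_ T)⟦m⟧)⟦(1 : ℤ)⟧ := (shiftFunctorAdd' T m 1 (m + 1) rfl).app _
    obtain ⟨t', ht'⟩ := (dist_bdM D U M s).lift₁ (e.hom ≫ t⟦(1 : ℤ)⟧') (by
      rw [Category.assoc, ← Functor.map_comp, ht, Functor.map_zero, comp_zero])
    obtain ⟨v, hv⟩ := h' b M i δ hM t'
    have h1 := congrArg (· ≫ bdM D U M s) (h b M i δ hM _ hv)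
    simp only [Preadditive.zsmul_comp, Preadditive.sub_comp, Category.assoc, zero_comp] at h1
    rw [(dist_bdM D U M s).zero₂₃, comp_zero, sub_zero, ht', smul_smul, ← Preadditive.comp_zsmul,
      ← Functor.map_zsmul] at h1
    apply (shiftFunctor T (1 : ℤ)).map_injective
    rw [← cancel_epi e.hom, h1, Functor.map_zero, comp_zero]

variable (T) in
/-- **EXP** -/
theorem exp [LocallySmall.{0} T] : EXP T := by
  intro hS D n hn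
  obtain ⟨U⟩ := exists_unitCof D.R
  obtain ⟨c, hc, h⟩ := kill D U hS (n + 2).toNat 0 (n + 1) (by omega) (by omega)
  obtain ⟨c', hc', h'⟩ := cyc0 D U (m := n + 1) (by omega)
  obtain ⟨N, a, ha, hN⟩ := Nat.exists_eq_pow_mul_and_not_dvd
    (Int.natAbs_ne_zero.2 (mul_ne_zero hc hc')) 3 (by norm_num)
  refine ⟨N, fun z k hz => ?_⟩
  obtain ⟨M, i, δ, hM⟩ := exists_cone (((3 : ℕ) : ℤ) ^ k • 𝟙 (𝟙_ T))
  let e : (𝟙_ T)⟦n + 1⟧ ≅ ((𝟙_ T)⟦n⟧)⟦(1 : ℤ)⟧ := (shiftFunctorAdd' T n 1 (n + 1) rfl).app _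
  obtain ⟨t, ht⟩ := (dist_red hM (𝟙_ T)).lift₁ (e.hom ≫ z⟦(1 : ℤ)⟧') (by
    rw [Category.assoc, ← Functor.map_comp, Preadditive.comp_zsmul, Category.comp_id]
    exact (congrArg (fun f => e.hom ≫ f⟦(1 : ℤ)⟧') hz).trans
      (by rw [Functor.map_zero, comp_zero]))
  have h1 : (c * c') • z = 0 := by
    apply (shiftFunctor T (1 : ℤ)).map_injective
    rw [← cancel_epi e.hom, Functor.map_zsmul, Preadditive.comp_zsmul, ← ht,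
      ← Preadditive.zsmul_comp, ← smul_smul, h k M i δ hM _ (h' k M i δ hM t), zero_comp,
      Functor.map_zero, comp_zero]
  have h2 : ((a : ℤ) * 3 ^ N) • z = 0 := by
    have h3 : (c * c') ∣ (a : ℤ) * 3 ^ N := by
      rw [← Int.natAbs_dvd, hN]
      push_cast
      rw [mul_comm]
    obtain ⟨l, hl⟩ := h3
    rw [hl, mul_comm, ← smul_smul, h1, smul_zero]
  have h4 : IsCoprime (a : ℤ) (3 ^ k) := by
    refine IsCoprime.pow_right (Nat.isCoprime_iff_coprime.2 ?_ : IsCoprime (a : ℤ) ((3 : ℕ) : ℤ))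
    exact ((Nat.Prime.coprime_iff_not_dvd Nat.prime_three).2 ha).symm
  obtain ⟨x, y, hxy⟩ := h4
  rw [← one_smul ℤ ((3 : ℤ) ^ N • z), ← hxy, add_smul, mul_smul, mul_smul, smul_smul (a : ℤ), h2,
    smul_comm ((3 : ℤ) ^ k), hz, smul_zero, smul_zero, smul_zero, add_zero]

end Vale.Agent.P236Z.Cv
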