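import Vale.Agent.P236Z.Top.Fin
import Vale.Agent.P236Z.Cv.Defs

/-!
# P236: the final statement, with the vanishing of the limit term
-/

open CategoryTheory MonoidalCategory Limits Pretriangulated
open Vale.Agent.P251 Vale.Agent.P251.M Vale.Agent.P251.St Vale.Agent.P251.St.SHCat
  Vale.Agent.P236Z.St Vale.Agent.P236Z.Top

namespace Vale.Agent.P236Z.Cv

variable {T : SHCat} {H : T.C} {e : Hom T.one H} (A : AdamsTower e)

theorem af_down (s : ℕ) : ∀ r : ℕ, Tr.AF e r (A.down s r)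
  | 0 => trivial
  | r + 1 => by
    have h := (Tr.AF.of_null (tower_dist A (s + r)).zero₁₂).comp (af_down s r)
    rwa [add_comm 1 r] at h

theorem three_ten (h3 : (3 : ℤ) • 𝟙 H = 0) {P Y : T.C} (b : P ⟶ H ⊗ Y) : (3 : ℤ) • b = 0 := by
  have h : ((3 : ℤ) • 𝟙 H) ▷ Y = (3 : ℤ) • (𝟙 H ▷ Y) := (tensorRight Y).map_zsmul ..
  rw [← Category.comp_id b, ← Preadditive.comp_zsmul, ← id_whiskerRight, ← h, h3,
    MonoidalPreadditive.zero_whiskerRight, comp_zero]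

theorem bounded (h3 : (3 : ℤ) • 𝟙 H = 0) {P : T.C}
    (h : ∃ N : ℕ, ∀ (z : P ⟶ 𝟙_ T.C) (k : ℕ), (3 : ℤ) ^ k • z = 0 → (3 : ℤ) ^ N • z = 0) :
    ∀ s, ∃ N : ℕ, ∀ (z : P ⟶ A.X s) (k : ℕ), (3 : ℤ) ^ k • z = 0 → (3 : ℤ) ^ N • z = 0
  | 0 => by
    obtain ⟨N, hN⟩ := h
    refine ⟨N, fun z k hz => ?_⟩
    rw [← cancel_mono A.base.hom, zero_comp, Preadditive.zsmul_comp]
    exact hN _ k (by rw [← Preadditive.zsmul_comp, hz, zero_comp])
  | s + 1 => by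
    obtain ⟨N, hN⟩ := bounded h3 h s
    refine ⟨N + 1, fun z k hz => ?_⟩
    obtain ⟨b, hb⟩ := (tower_dist A s).lift₁ (((3 : ℤ) ^ N • z)⟦(1 : ℤ)⟧') (by
      rw [← Functor.map_comp, Preadditive.zsmul_comp,
        hN _ k (by rw [← Preadditive.zsmul_comp, hz, zero_comp]), Functor.map_zero])
    apply (shiftFunctor T.C (1 : ℤ)).map_injective
    rw [pow_succ', mul_smul, Functor.map_zsmul, ← hb, ← Preadditive.zsmul_comp, three_ten h3,
      zero_comp, Functor.map_zero]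

/-- A permanent cycle is the Hurewicz image of a homotopy class. -/
theorem exists_of_perm (S : Susp T) (hS : SAHN)
    (hE : have := locallySmall_self.{0} T.C; EXP T.C)
    (hD : have := locallySmall_self.{0} T.C; DIVI T.C) (he : IsHF 3 e) {n : ℤ} (hn : 0 < n)
    (s : ℕ) (x : Hom (sph T n) (ten H (A.X s))) (hx : A.IsPermCycle s x) :
    ∃ y : Hom (sph T n) (A.X s), y ≫ Tr.hur e (A.X s) = x := by
  have := locallySmall_self.{0} T.C
  obtain ⟨M⟩ := nonempty_MUMon S.toSpaceFunctor (stdEven T.C) (lineIso S.toSpaceFunctor)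
  obtain ⟨b⟩ := M.nonempty_muBasis
  obtain ⟨h3, hd⟩ := hD S.toSpaceFunctor H e ((isHF_iff 3).1 he)
  have hc : ∀ s, Conn 0 (A.X s) := fun s => by
    induction s with
    | zero => exact (M.data b).conn_unit.of_iso A.base.symm
    | succ s ih => exact (hd _ 0 ih).1 _ _ _ (tower_dist A s)
  obtain ⟨N, hN⟩ := bounded A h3 (hE hS (M.data b) (n - 1) (by omega)) (s + 1)
  let c : (𝟙_ T.C)⟦n⟧ ≅ ((𝟙_ T.C)⟦n - 1⟧)⟦(1 : ℤ)⟧ :=
    (shiftFunctorAdd' T.C (n - 1) 1 n (by omega)).app _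
  obtain ⟨y, hy⟩ := (shiftFunctor T.C (1 : ℤ)).map_surjective (c.inv ≫ x ≫ A.d s)
  obtain ⟨y', rfl⟩ := (hd _ 0 (hc (s + 1))).2 (n - 1) y (fun r => by
    obtain ⟨z, hz⟩ := hx r
    obtain ⟨z', hz'⟩ := (shiftFunctor T.C (1 : ℤ)).map_surjective (c.inv ≫ z)
    have h1 : z' ≫ A.down (s + 1) r = y := by
      apply (shiftFunctor T.C (1 : ℤ)).map_injective
      rw [Functor.map_comp, hz', hy, Category.assoc]
      exact congrArg (c.inv ≫ ·) hz
    exact h1 ▸ (af_down A (s + 1) r).pre z') N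
  refine (tower_dist A s).lift₃ x ?_
  rw [← cancel_epi c.inv, ← hy, hN y' (N + 1) ?_, Functor.map_zero, comp_zero]
  apply (shiftFunctor T.C (1 : ℤ)).map_injective
  rw [pow_succ', mul_smul, Functor.map_zsmul, hy, ← Category.assoc, ← Preadditive.zsmul_comp,
    three_ten h3, zero_comp, Functor.map_zero]

theorem boundary_of {n : ℤ} (h : ∀ θ : Hom (sph T n) T.one, A.FiltGe 3 θ) {s : ℕ} (hs : s ≤ 2)
    (y : Hom (sph T n) (A.X s)) : A.IsBoundary s (y ≫ Tr.hur e (A.X s)) := by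
  obtain ⟨w, hw⟩ := h (y ≫ A.toSphere s)
  obtain ⟨w', hw'⟩ : ∃ w' : Hom (sph T n) (A.X (s + 1)),
      w' ≫ A.toSphere (s + 1) = y ≫ A.toSphere s := by
    interval_cases s
    · exact ⟨w ≫ A.g 2 ≫ A.g 1, by rw [← hw, Category.assoc, Category.assoc]; rfl⟩
    · exact ⟨w ≫ A.g 2, by rw [← hw, Category.assoc]; rfl⟩
    · exact ⟨w, hw⟩
  refine ⟨y - w' ≫ A.g s, ?_, ?_⟩
  · change (y - w' ≫ A.g s) ≫ A.toSphere s = 0
    rw [Preadditive.sub_comp, Category.assoc, sub_eq_zero]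
    exact hw'.symm
  · change (y - w' ≫ A.g s) ≫ hur e (A.X s) = _
    rw [hur_eq, Preadditive.sub_comp, Category.assoc, (tower_dist A s).zero₁₂, comp_zero, sub_zero]

/-- The final statement. -/
def FIN2 : Prop :=
  (∃ T : SHCat, Nonempty (Susp T)) ∧ ∀ (T : SHCat) (_ : Susp T),
    (∃ (H : T.C) (e : Hom T.one H), IsHF 3 e) ∧
    ∀ (H : T.C) (e : Hom T.one H), IsHF 3 e → Nonempty (AdamsTower e) ∧
      ∀ (A : AdamsTower e) (j : ℕ), 4 ≤ j →
        (∀ θ : Hom (sph T (4 * 3 ^ (j + 1) - 2)) T.one, A.FiltGe 3 θ) ∧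
        ∀ s : ℕ, s ≤ 2 → ∀ x : Hom (sph T (4 * 3 ^ (j + 1) - 2)) (ten H (A.X s)),
          A.IsPermCycle s x → A.IsBoundary s x

theorem fin2_of (h : FIN) (hS : SAHN)
    (hE : ∀ T : SHCat, have := locallySmall_self.{0} T.C; EXP T.C)
    (hD : ∀ T : SHCat, have := locallySmall_self.{0} T.C; DIVI T.C) : FIN2 := by
  refine ⟨h.1, fun T S => ⟨(h.2 T S).1, fun H e he => ⟨((h.2 T S).2 H e he).1, fun A j hj => ?_⟩⟩⟩
  have h1 := ((h.2 T S).2 H e he).2 A j hj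
  refine ⟨h1, fun s hs x hx => ?_⟩
  obtain ⟨y, rfl⟩ := exists_of_perm A S hS (hE T) (hD T) he (by
    have : (0 : ℤ) < 3 ^ (j + 1) := by positivity
    omega) s x hx
  exact boundary_of A h1 hs y

end Vale.Agent.P236Z.Cv
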