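import Vale.Agent.P236Z.Det.Sah
import Vale.Agent.P236Z.Cv.Defs

/-!
# P236, convergence: the central element `4` acts trivially on cohomology, all degrees
-/

namespace Vale.Agent.P236Z.Cv

open Vale.Agent.P217 Vale.Agent.P251.F Vale.Agent.P251.F.Cob LawRing InvSeries
  Vale.Agent.P236Z.Det Vale.Agent.P236Z.Det.Sah

section prism

variable {G G' A A' : Type} [AddCommGroup A] [AddCommGroup A']

/-- the coboundary of a function of tuples -/
def cb {n : ℕ} (E : (Fin n → G) → A) (a : Fin (n + 1) → G) : A :=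
  ∑ i : Fin (n + 1), ((-1 : ℤ) ^ (i : ℕ)) • E fun j => a (i.succAbove j)

/-- the prism operator -/
def pr (t : G → G) : ∀ {n : ℕ}, ((Fin (n + 1) → G) → A) → (Fin n → G) → A
  | 0, _, _ => 0
  | _ + 1, E, a => E (Fin.cons (a 0) fun j => t (a j)) -
      pr t (fun b => E (Fin.cons (a 0) b)) fun j => a j.succ

theorem pr_map {t : G → G} {t' : G' → G'} (f : G → G') (hf : ∀ a, f (t a) = t' (f a))
    (φ : A →+ A') : ∀ {n : ℕ} (E : (Fin (n + 1) → G) → A) (E' : (Fin (n + 1) → G') → A'),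
    (∀ b, φ (E b) = E' fun j => f (b j)) → ∀ a, φ (pr t E a) = pr t' E' fun j => f (a j)
  | 0, _, _, _, _ => map_zero φ
  | n + 1, E, E', h, a => by
    have e : ∀ (c : G) (b : Fin (n + 1) → G),
        (fun j => f ((Fin.cons c b : Fin (n + 2) → G) j)) = Fin.cons (f c) fun j => f (b j) :=
      fun c b => funext fun j => Fin.cases rfl (fun _ => rfl) j
    rw [pr, pr, map_sub, h, e, pr_map f hf φ _ (fun b => E' (Fin.cons (f (a 0)) b))
      (fun b => by rw [h, e])]
    simp only [hf]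

theorem pr_sub (t : G → G) : ∀ {n : ℕ} (E E' : (Fin (n + 1) → G) → A) (a : Fin n → G),
    pr t (fun b => E b - E' b) a = pr t E a - pr t E' a
  | 0, _, _, _ => (sub_zero 0).symm
  | n + 1, E, E', a => by
    rw [pr, pr, pr, pr_sub]
    abel

theorem cb_cons {n : ℕ} (E : (Fin (n + 1) → G) → A) (c : G) (b : Fin (n + 1) → G) :
    cb E (Fin.cons c b) = E b - cb (fun b' => E (Fin.cons c b')) b := by
  rw [cb, cb, Fin.sum_univ_succ, sub_eq_add_neg, ← Finset.sum_neg_distrib]
  congr 1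
  · simp
  · refine Finset.sum_congr rfl fun i _ => ?_
    rw [Fin.val_succ, pow_succ, mul_neg_one, neg_smul]
    congr 3
    funext j
    refine Fin.cases ?_ (fun j => ?_) j <;> simp

theorem prism (t : G → G) : ∀ {n : ℕ} (E : (Fin (n + 1) → G) → A) (a : Fin (n + 1) → G),
    pr t (cb E) a + cb (pr t E) a = E (fun j => t (a j)) - E a
  | 0, E, a => by
    have h : ∀ c : G, (Fin.cons c (fun j : Fin 0 => j.elim0) : Fin 1 → G) = fun _ => c :=
      fun c => funext fun j => by rw [Fin.fin_one_eq_zero j]; rfl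
    rw [pr, cb_cons]
    simp only [pr, cb, smul_zero, Finset.sum_const_zero, sub_zero, add_zero, Fin.sum_univ_succ,
      Fin.sum_univ_zero, Fin.val_zero, pow_zero, one_smul]
    congr 2
    funext j
    rw [Fin.fin_one_eq_zero j]
    rfl
  | n + 1, E, a => by
    obtain ⟨c, b, rfl⟩ : ∃ (c : G) (b : Fin (n + 1) → G), a = Fin.cons c b :=
      ⟨a 0, fun j => a j.succ, (Fin.cons_self_tail a).symm⟩
    have e : (fun j => t ((Fin.cons c b : Fin (n + 2) → G) j)) = Fin.cons (t c) fun j => t (b j) :=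
      funext fun j => Fin.cases rfl (fun _ => rfl) j
    have h1 := prism t (fun b' => E (Fin.cons c b')) b
    have h2 : cb (fun b' => pr t E (Fin.cons c b')) b =
        cb (fun b' => E (Fin.cons c (Fin.cons (t c) b'))) (fun j => t (b j)) -
          cb (pr t fun b' => E (Fin.cons c b')) b := by
      rw [cb, cb, cb, ← Finset.sum_sub_distrib]
      refine Finset.sum_congr rfl fun i _ => ?_
      rw [← smul_sub, pr]
      congr 4
      funext j
      exact Fin.cases rfl (fun _ => rfl) j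
    have h3 : pr t (cb E) (Fin.cons c b) = cb E (Fin.cons c (Fin.cons (t c) fun j => t (b j))) -
        pr t (fun b' => E b' - cb (fun b'' => E (Fin.cons c b'')) b') b := by
      rw [pr, e]
      simp only [Fin.cons_zero, Fin.cons_succ, cb_cons]
    rw [h3, cb_cons, cb_cons, cb_cons, pr_sub, h2, e, ← sub_eq_zero, ← sub_eq_zero.2 h1]
    abel

theorem pr_zero (t : G → G) {n : ℕ} (a : Fin n → G) :
    pr t (fun _ : Fin (n + 1) → G => (0 : A)) a = 0 := by
  have h := pr_sub t (fun _ : Fin (n + 1) → G => (0 : A)) (fun _ => 0) a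
  simpa using h

end prism

variable {B B' : Type} [CommRing B] [CommRing B'] {n s N : ℕ}

/-- the prism operator on cochains -/
noncomputable def HH (h : (3 : B) ^ N = 0) (x : Cob Laz (s + 1)) (F : Laz →+* B)
    (a : Fin (s + 1) → InvSeries B) : B :=
  pr (· * gam h F) (fun b => ev (ch F b) x) a

theorem HH_res (h : (3 : B) ^ N = 0) (x : Cob Laz (s + 1)) (c : Chain Laz n B)
    (α : Fin (s + 1) → Fin (n + 1)) :
    HH h x (c.res α).pt (c.res α).g = HH h x c.pt fun i => c.g (α i) := by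
  have h1 := pr_map (t := (· * gam h (c.res α).pt)) (t' := (· * gam h c.pt)) (· * c.g (α 0))
    (fun a => by simp only [Chain.res_pt, mul_assoc, gam_act]) (AddMonoidHom.id B)
    (fun b => ev (ch (c.res α).pt b) x) (fun b => ev (ch c.pt b) x) (fun b => by
      rw [ch_mul, lead_eq_one (c.strict (α 0)), Chain.scale_one]
      rfl) (c.res α).g
  simp only [Chain.res_g, inv_mul_cancel_right] at h1
  exact h1

theorem map_HH (φ : B →+* B') (h : (3 : B) ^ N = 0) (h' : (3 : B') ^ N = 0) (x : Cob Laz (s + 1))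
    (F : Laz →+* B) (a : Fin (s + 1) → InvSeries B) :
    φ (HH h x F a) = HH h' x (φ.comp F) fun i => InvSeries.map φ (a i) :=
  pr_map (InvSeries.map φ) (fun a => by rw [map_mul, map_gam h φ h']) φ.toAddMonoidHom _ _
    (fun b => by
      change φ _ = _
      rw [← ev_map, ch_map]) a

theorem exists_HH (N : ℕ) (x : Cob Laz (s + 1)) : ∃ y : Cob Laz s, ∀ (B : Type) [CommRing B]
    (h : (3 : B) ^ N = 0) (c : Chain Laz s B), ev c y = HH h x c.pt c.g := by
  let c₀ := (univ Laz s).map (Ideal.Quotient.mk (Ideal.span {(3 : Cob Laz s) ^ N}))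
  obtain ⟨y, hy⟩ := Ideal.Quotient.mk_surjective (HH (quot _ N) x c₀.pt c₀.g)
  refine ⟨y, fun B _ h c => ?_⟩
  let φ := Ideal.Quotient.lift (Ideal.span {(3 : Cob Laz s) ^ N}) (ev c) fun a ha =>
    ev_zero h (Ideal.mem_span_singleton.1 ha) c
  have e : c₀.map φ = c := by
    rw [← univ_map_ev c]
    exact Chain.ext rfl (funext fun i => InvSeries.map_map _ _ _)
  rw [← e, show ev (c₀.map φ) y = φ (Ideal.Quotient.mk _ y) from by rw [e]; rfl, hy,
    map_HH φ _ h]
  rfl

/-- `4 ^ k - 1` kills the cohomology modulo `3 ^ N` in weight `k`. -/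
theorem sahS (s k N : ℕ) (x : Cob Laz (s + 1)) (hx : IsWt (k : ℤ) x)
    (hd : (3 : Cob Laz (s + 2)) ^ N ∣ d (s + 1) x) : ∃ y r : Cob Laz _, IsWt (k : ℤ) y ∧
      IsWt (k : ℤ) r ∧ (4 ^ k - 1 : ℤ) • x = d s y + (3 ^ N : ℤ) • r := by
  obtain ⟨y, hy⟩ := exists_HH N x
  obtain ⟨r, hr⟩ : (3 : Cob Laz (s + 1)) ^ N ∣ (4 ^ k - 1) * x - d s y := dvd_of fun B _ h c => by
    have h1 := prism (· * gam h c.pt) (fun b => ev (ch c.pt b) x) c.g
    have h2 : cb (fun b => ev (ch c.pt b) x) = fun _ => 0 := funext fun b => by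
      rw [← ev_zero h hd (ch c.pt b), ev_d]
      simp only [ch_res]
      rfl
    rw [h2, pr_zero, zero_add, ev_gam h hx, ch_self] at h1
    simp only [map_sub, map_mul, map_pow, map_ofNat, map_one, ev_d, hy B h, HH_res]
    change _ - cb (pr (· * gam h c.pt) fun b => ev (ch c.pt b) x) c.g = 0
    rw [h1]
    ring
  refine ⟨proj k y, proj k r, isWt_proj _ _, isWt_proj _ _, ?_⟩
  have e1 : (4 ^ k - 1) * x = (4 ^ k - 1 : ℤ) • x := by simp
  have e2 : ∀ z : Cob Laz (s + 1), 3 ^ N * z = (3 ^ N : ℤ) • z := fun z => by simp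
  have h1 := (map_sub (projHom Laz (s + 1) k) _ _).symm.trans
    (congrArg (projHom Laz (s + 1) k) hr)
  simp only [projHom_apply] at h1
  rw [e2, proj_zsmul, proj_d, proj_of_isWt (e1 ▸ hx.zsmul _), if_pos rfl, e1] at h1
  rw [← h1, add_sub_cancel]

/-- **SAHN** -/
theorem sahn : SAHN := fun n k N x hx hd => by
  obtain ⟨y, r, hy, -, h⟩ := sahS n k N x hx hd
  refine ⟨y, hy, r, ?_⟩
  have e1 : (4 ^ k - 1) * x = (4 ^ k - 1 : ℤ) • x := by simp
  rw [e1, h]
  simp

end Vale.Agent.P236Z.Cv
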